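import Vale.Agent.P181.TQ.Defs
import Vale.Agent.P181.H73.TallQ

set_option autoImplicit false

/-!
# P181, line TQ, block (T6): few columns, all `k`, all `q ≥ 2` (helper983)
-/

open scoped TensorProduct

namespace Vale.Agent.P181.TQ.H983

open Vale.Agent.P181 Vale.Agent.P181.H280 Vale.Agent.P181.H73 Finset MvPolynomial

/-- The core, `a = c + 4`, `b = (q + 1) a + (k + 1)`. -/
theorem core (hP : PlaceStmt) (hC : ColStmt) (hR : RedStmt) (hE : EndStmt) {c k q b : ℕ}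
    (hk : k + 1 ≤ c ∨ k = 0) (hq : 1 ≤ q) (lam : Fin (c + 4) → ℕ)
    (hanti : ∀ i, lam (Fin.last (c + 3)) ≤ lam i) (B e : ℕ) (hB : H270.B0 q ≤ B)
    (hB2 : c + 3 + B ≤ q * (c + 4)) (he : Even (k + 4 + e)) (hec : e ≤ c)
    (hm : lam (Fin.last (c + 3)) = k + 4 + B + e) (hb : b = (q + 1) * (c + 4) + (k + 1))
    (ε : H394.T (k + 1) (c + 4) (q + 1) ≃ Fin b) :
    plethMult (c + 4) b (c + 4) lam ≤ plethMult b (c + 4) (c + 4) lam := by
  refine (H394.plethMult_le_of_formG ε lam ?_).2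
  intro l hx hrel
  have hF : H270.Rel (k + 1) (q + 1) (linS (c + 4)) (formOf l) := fun y hy => hrel y hy
  set xs : Fin (c + 4) → MvPolynomial (Fin (c + 4)) ℂ := fun i => X i with hxs
  have hxL : ∀ i, xs i ∈ linS (c + 4) := fun i => X_mem_linS _
  have hHW : HWForm xs (fun i => pderiv i)
      (fun b => linS (c + 4) ^ b) b (fun i => (lam i : ℂ)) (formOf l) := by
    have h1 := hwForm_formOf (le_refl (c + 4)) lam l hx
    simpa using h1
  have hs : IsSymm (formOf l) := formOf_symm l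
  have hsgn : IsSgn (k + 4) ((altC xs)^[k + 4] (formOf l)) := H270.isSgn_iter hs xs (k + 4)
  have hcol : ∀ G ∈ linS (c + 4) ^ (c + 4),
      Col (linS (c + 4)) c (mulArg ((altC xs)^[k + 4] (formOf l)) (fun _ => G ^ q)) := by
    intro G hG
    apply hC _ (c + 4) k c (linS (c + 4)) _ _ rfl (by omega)
    · intro w hw v hv
      rw [mulArg_apply, ← hP _ (c + 4) k q (linS (c + 4)) (formOf l) (by omega) hs hF xs hxL G hG
        w hw v hv]
      congr 1
      funext i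
      rw [mul_comm]
    · intro σ R h0
      rw [mulArg_apply] at h0 ⊢
      exact H872.zInv_of_isSgn hsgn σ (fun i => G ^ q * R i) h0
  refine hE (c + 3) b lam (formOf l) hs hHW (k + 4 + B) e c (q * (c + 4) - B) (k + 4)
    ?_ he hec (by omega) hm hanti ?_
  · have h1 : (q + 1) * (c + 4) = q * (c + 4) + (c + 4) := by ring
    omega
  · intro Q hQ
    exact hR _ (c + 4) q c (k + 4) (linS (c + 4)) (formOf l) (by omega) hq hs xs hxL hcol B hB
      (by omega) Q hQ

/-- The numerical choice of `B` and `e`. -/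
lemma choice (c p k m : ℕ)
    (h1 : k + 5 ≤ m + (k + 1) % 2) (h2 : k + 1 + 2 * (p + 2) ≤ m + 1 + (k + 1) % 2)
    (h3 : m + 1 ≤ (p + 1) * (c + 4) + (k + 1)) (hkc : k + 1 ≤ c ∨ k = 0) :
    ∃ B e, H270.B0 (p + 1) ≤ B ∧ c + 3 + B ≤ (p + 1) * (c + 4) ∧ Even (k + 4 + e) ∧ e ≤ c ∧
      m = k + 4 + B + e := by
  have hB0 : H270.B0 (p + 1) = 2 * p - 1 := by
    rw [H270.B0]
    split_ifs <;> omega
  have e1 : (p + 1) * (c + 4) = p * (c + 4) + (c + 4) := by ring
  have e2 : 4 * p ≤ p * (c + 4) := by nlinarith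
  rw [hB0]
  rw [e1] at h3 ⊢
  set Z := p * (c + 4) with hZ
  simp only [Nat.even_iff]
  by_cases hs : m ≤ Z + k + 5 + (k % 2)
  · exact ⟨m - (k + 4) - (k % 2), k % 2, by omega, by omega, by omega, by omega, by omega⟩
  · refine ⟨m - (k + 4) - ((m - (Z + k + 5)) + (m - (Z + k + 5) + k) % 2),
      (m - (Z + k + 5)) + (m - (Z + k + 5) + k) % 2, by omega, by omega, by omega, by omega,
      by omega⟩

/-- **(T6)** The final theorem. -/
theorem fin (hP : PlaceStmt) (hC : ColStmt) (hR : RedStmt) (hE : EndStmt) : FinStmt := by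
  intro a q k n lam hk hka hq han hlo hhi
  obtain ⟨c, rfl⟩ : ∃ c, a = c + 4 := ⟨a - 4, by omega⟩
  obtain ⟨k, rfl⟩ : ∃ k', k = k' + 1 := ⟨k - 1, by omega⟩
  obtain ⟨p, rfl⟩ : ∃ p, q = p + 2 := ⟨q - 2, by omega⟩
  apply all_n (c + 4) ((p + 2) * (c + 4) + (k + 1)) n han lam
  intro mu hanti _ hmu
  have hlast : ∀ i : Fin (c + 4), mu (Fin.last (c + 3)) ≤ mu i := fun i =>
    hanti (Fin.le_last i)
  have hlo' := hlo (Fin.castLE han (Fin.last (c + 3))) (by simp)
  rw [← hmu] at hlo'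
  have hhi' : mu (Fin.last (c + 3)) + 1 ≤ (p + 1) * (c + 4) + (k + 1) := by
    obtain ⟨i, hi, hi2⟩ := hhi
    have h1 := hlast ⟨i, hi⟩
    have h2 : mu ⟨i, hi⟩ = lam i := by
      rw [hmu]
      rfl
    have h3 : (p + 2 - 1) * (c + 4) = (p + 1) * (c + 4) := rfl
    omega
  obtain ⟨B, e, hB, hB2, he, hec, hm⟩ := choice c p k (mu (Fin.last (c + 3)))
    hlo'.1 (by omega) hhi' (by omega)
  exact core hP hC hR hE (by omega) (by omega) mu hlast B e hB hB2 he hec hm rfl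
    ((H394.numE (k + 1) (c + 4) (p + 2)).trans (finCongr (by ring)))

end Vale.Agent.P181.TQ.H983
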